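import Vale.Agent.P207Z.AnnD.P

/-!
# P207: the extension of an annihilator along the stable axis
-/
set_option linter.all false

open Set Filter Topology Metric MeasureTheory Asymptotics
open scoped ContDiff

noncomputable section

namespace Vale.Agent.P207Z.AnnD

open Sys

variable {Γ X B E V : Type} [Group Γ] [Countable Γ] [MetricSpace X] [ProperSpace X]
  [MulAction Γ X] [IsIsometricSMul Γ X] [MeasurableSpace X] [BorelSpace X]
  [TopologicalSpace B] [CompactSpace B] [T2Space B] [SecondCountableTopology B] [MulAction Γ B]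
  [ContinuousConstSMul Γ B] [MeasurableSpace B] [BorelSpace B]
  [NormedAddCommGroup E] [InnerProductSpace ℝ E] [FiniteDimensional ℝ E]
  [NormedAddCommGroup V] [NormedSpace ℝ V] [FiniteDimensional ℝ V]
  {F G W : Type} [NormedAddCommGroup F] [NormedSpace ℝ F] [FiniteDimensional ℝ F]
  [NormedAddCommGroup G] [NormedSpace ℝ G] [FiniteDimensional ℝ G]
  [NormedAddCommGroup W] [NormedSpace ℝ W]

variable {S : Sys Γ X B E V} (𝔉 : Bun S F)

theorem core {e : X → V → F}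
    (he : ∀ x y, ∀ q ∈ S.dom x y, e y (S.τ x y q) = 𝔉.A x y q (e x q)) {Ce : ℝ} (hCe : 0 ≤ Ce)
    (hb : ∀ x, ∀ q : V, ‖q‖ ≤ 1 / 2 → ‖e x q‖ ≤ Ce) (j N : ℕ) (w : ℝ) :
    ∃ K₁ ≥ N, ∀ K ≥ K₁, ∃ r C₀ : ℝ, 0 < r ∧ 0 ≤ C₀ ∧
      ∀ (x : X) (b : ℕ → Jet K V (F →L[ℝ] ℝ)) (C : ℝ),
        (∀ n : ℕ, b n = jet K (𝔉.pull (S.φ n x) (S.φ (n + 1) x) (poly (b (n + 1)))) 0) →
        (∀ n : ℕ, ‖b n‖ ≤ C * Real.exp (w * n)) →
        ∃ σ : V → F →L[ℝ] ℝ, ContDiffOn ℝ j σ (ball 0 r) ∧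
          (∀ i ≤ j, ∀ q ∈ ball (0 : V) r, ‖iteratedFDeriv ℝ i σ q‖ ≤ C₀ * C) ∧
          Flat N (fun q => σ q - poly (b 0) q) 0 ∧
          ∀ n : ℝ, 0 ≤ n → (∀ᶠ t : ℝ in atTop, ∃ i : ℕ, t ≤ i ∧ (i : ℝ) ≤ 2 * t ∧
            ∀ q : V, ‖q‖ ≤ 1 / 2 →
              |poly (b i) q (e (S.φ i x) q)| ≤ n * ‖b i‖ * ‖q‖ ^ (K + 1)) →
            ∃ C' : ℝ, ∀ q ∈ ball (0 : V) r, |σ q (e x q)| ≤ C' * ‖S.pU q‖ ^ N := by
  obtain ⟨β, hβ, h1⟩ := incr_bd 𝔉 (G := ℝ) (N + j)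
  obtain ⟨κ, r₁, T, hκ, hr₁, h2⟩ := near_bd 𝔉 he N w
  obtain ⟨r₂, D₂, hr₂, hr₃, -, h3⟩ := stay_prS S
  obtain ⟨CL, hCL, h4⟩ := tay_lim (W := F →L[ℝ] ℝ) N j (prS S) prS_le
  obtain ⟨CT, hCT, h5⟩ := tay_bound (W := F →L[ℝ] ℝ) N j (prS S) prS_le
  have hl := S.lam_pos
  set μ : ℝ := 2 * κ * N + 1 with hμ
  have hμ1 : 1 ≤ μ := le_add_of_nonneg_left (by positivity)
  obtain ⟨m₀, hm₀⟩ := exists_nat_ge ((w + β + μ) / S.lam)
  rw [div_le_iff₀ hl] at hm₀
  refine ⟨N + j + N + m₀, by omega, fun K hK => ?_⟩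
  obtain ⟨m, hm, hmN, hm1⟩ : ∃ m, m + (N + j) = K + 1 ∧ N + 1 ≤ m ∧ m₀ ≤ m :=
    ⟨K + 1 - (N + j), by omega, by omega, by omega⟩
  have r1 : β - S.lam * m + w ≤ -μ := by
    have : (m₀ : ℝ) ≤ m := by exact_mod_cast hm1
    nlinarith
  have r2 : w - S.lam * (K + 1 : ℕ) ≤ -μ := by
    have : (m : ℝ) ≤ (K + 1 : ℕ) := by exact_mod_cast (by omega : m ≤ K + 1)
    nlinarith
  obtain ⟨r₄, C₂, hr₄, hC₂, h6⟩ := h1 K m hm
  obtain ⟨C₁, hC₁, h7⟩ := h2 K
  obtain ⟨D, hD, h8⟩ := poly_bd (V := V) (W := F →L[ℝ] ℝ) K (N + j + N + 1)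
  set r := min r₁ (min r₂ r₄) with hr
  have s1 : ball (0 : V) r ⊆ ball 0 r₁ := ball_subset_ball (min_le_left _ _)
  have s2 : ball (0 : V) r ⊆ ball 0 r₂ :=
    ball_subset_ball ((min_le_right _ _).trans (min_le_left _ _))
  have s4 : ball (0 : V) r ⊆ ball 0 r₄ :=
    ball_subset_ball ((min_le_right _ _).trans (min_le_right _ _))
  have hr0 : 0 < r := lt_min hr₁ (lt_min hr₂ hr₄)
  have hq2 : ∀ q ∈ ball (0 : V) r, ‖q‖ < 1 / 2 := fun q hq =>
    (mem_ball_zero_iff.1 (s2 hq)).trans_le hr₃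
  refine ⟨r, CL * (C₂ * Real.exp w) + CT * D, hr0, by positivity, fun x b C hbb hC => ?_⟩
  have hb0 : ‖b 0‖ ≤ C := by simpa using hC 0
  have hC0 : 0 ≤ C := (norm_nonneg _).trans hb0
  obtain ⟨σ, a1, a2, a3⟩ := h4 (fun n => 𝔉.pull x (S.φ n x) (poly (b n))) (fun n => S.dom x (S.φ n x))
    r μ (C₂ * Real.exp w * C) m
    (((min_le_right _ _).trans (min_le_left _ _)).trans (hr₃.trans (by norm_num))) hμ1
    (by positivity) (fun _ => isOpen_dom) (fun n => pull_poly_smooth 𝔉 _ _ _)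
    (fun n q hq => ((h3 x n (Nat.cast_nonneg n) q (s2 hq)).1 _ right_mem_uIcc).1)
    (fun n q hq i hi => by
      rw [Nat.cast_succ]
      refine (h6 x n _ _ (Nat.cast_nonneg n) (hbb n) q (s4 hq) i hi).trans ?_
      calc _ ≤ C₂ * (C * Real.exp (w * (n + 1 : ℕ))) * ‖q‖ ^ m *
            Real.exp ((β - S.lam * m) * n) := by gcongr; exact hC _
        _ = C₂ * Real.exp w * C * ‖q‖ ^ m * Real.exp ((β - S.lam * m + w) * n) := by
            rw [Nat.cast_succ, mul_add w, mul_one, Real.exp_add, add_mul _ w, Real.exp_add]; ring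
        _ ≤ _ := by gcongr)
  have e0 : ∀ q ∈ ball (0 : V) r, tay N (prS S) (𝔉.pull x (S.φ (0 : ℕ) x) (poly (b 0))) =ᶠ[𝓝 q]
      tay N (prS S) (poly (b 0)) := fun q hq => by
    filter_upwards [isOpen_ball.mem_nhds hq] with z hz
    refine tay_congr ?_
    have : prS S z ∈ ball (0 : V) 1 :=
      mem_ball_zero_iff.2 ((norm_prS z).trans_lt ((hq2 z hz).trans (by norm_num)))
    filter_upwards [isOpen_ball.mem_nhds this] with v hv
    rw [Nat.cast_zero, S.φ_zero, Bun.pull, τ_self hv, 𝔉.self x v hv]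
    rfl
  have a4 : ∀ i ≤ j, ∀ q ∈ ball (0 : V) r,
      ‖iteratedFDeriv ℝ i σ q‖ ≤ (CL * (C₂ * Real.exp w) + CT * D) * C := fun i hi q hq => by
    have b1 := a2 i hi q hq
    rw [((e0 q hq).iteratedFDeriv ℝ i).self_of_nhds] at b1
    have b2 := h5 (poly (b 0)) univ q (D * C) isOpen_univ (contDiff_poly _).contDiffOn trivial
      (by linarith [hq2 q hq]) (fun l hl => (h8 _ _ (by linarith [hq2 q hq, norm_prS (S := S) q])
        l (by omega)).trans (mul_le_mul_of_nonneg_left hb0 hD)) i hi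
    have b3 := norm_le_insert' (iteratedFDeriv ℝ i σ q)
      (iteratedFDeriv ℝ i (tay N (prS S) (poly (b 0))) q)
    linarith
  refine ⟨σ, a1, a4, Flat.of_pow (C := CL * (C₂ * Real.exp w * C) + D * C) ?_, fun n hn hev => ?_⟩
  · filter_upwards [ball_mem_nhds (0 : V) hr0] with q hq
    have b1 := a3 0 q hq
    rw [(e0 q hq).self_of_nhds, Nat.cast_zero, mul_zero, Real.exp_zero, mul_one] at b1
    have b2 := tay_rem (N := N) (π := prS S) (h := poly (b 0)) (q := q) (ρ := 1 / 2) (C := D * C)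
      (contDiff_poly _).contDiffOn (fun z hz => (h8 _ _ (by
        linarith [hq2 q hq, norm_prS (S := S) q, mem_ball_iff_norm.1 hz,
          norm_le_insert' z (prS S q)]) _ (by omega)).trans (mul_le_mul_of_nonneg_left hb0 hD))
      (by rw [norm_sub_prS]; exact (S.norm_pU_le q).trans_lt (hq2 q hq))
    rw [norm_sub_prS, norm_sub_rev] at b2
    have b3 := mul_le_mul_of_nonneg_left (pow_le_pow_left₀ (norm_nonneg _) (S.norm_pU_le q) (N + 1))
      (mul_nonneg hD hC0)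
    have b4 := mul_le_mul_of_nonneg_left (pow_le_pow_of_le_one (norm_nonneg q)
      (by linarith [hq2 q hq]) hmN) (by positivity : 0 ≤ CL * (C₂ * Real.exp w * C))
    have b5 := norm_sub_le_norm_sub_add_norm_sub (σ q) (tay N (prS S) (poly (b 0)) q)
      (poly (b 0) q)
    rw [sub_zero]
    linarith
  obtain ⟨T', hT'⟩ := eventually_atTop.1 hev
  obtain ⟨C', hC'⟩ := final_le (κ := 2 * κ) (μ := μ) (N := N)
    (B := (CL * (C₂ * Real.exp w) + CT * D) * C * Ce)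
    (C := CL * (C₂ * Real.exp w * C) * Ce + C₁ * C * Ce + C₁ * n * C) (by linarith) le_rfl
    (by positivity) (by positivity) (max (max T T') 0)
  refine ⟨C', fun q hq => hC' _ _ (norm_nonneg _) ?_ fun t ht hd => ?_⟩
  · have b1 := a4 0 (Nat.zero_le _) q hq
    rw [norm_iteratedFDeriv_zero] at b1
    exact ((σ q).le_opNorm _).trans (mul_le_mul b1 (hb x q (hq2 q hq).le) (norm_nonneg _)
      (by positivity))
  obtain ⟨i, i1, i2, i3⟩ := hT' t (le_of_max_le_right (le_of_max_le_left ht))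
  obtain ⟨b1, b2⟩ := h7 x (b i) i C n ((le_of_max_le_left (le_of_max_le_left ht)).trans i1)
    (Nat.cast_nonneg i) hn (hC i) i3 q (s1 hq) (hd.trans (Real.exp_le_exp.2 (by nlinarith)))
  have b3 := a3 i q hq
  have c1 : Real.exp (-μ * i) ≤ Real.exp (-μ * t) := Real.exp_le_exp.2 (by nlinarith)
  have c2 : Real.exp ((w - S.lam * (K + 1 : ℕ)) * i) ≤ Real.exp (-μ * t) :=
    le_trans (by gcongr) c1
  have b4 : ‖σ q - tay N (prS S) (𝔉.pull x (S.φ i x) (poly (b i))) q‖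
      ≤ CL * (C₂ * Real.exp w * C) * Real.exp (-μ * t) :=
    b3.trans (mul_le_mul (mul_le_of_le_one_right (by positivity)
      (pow_le_one₀ (norm_nonneg _) (by linarith [hq2 q hq]))) c1 (by positivity) (by positivity))
  have b5 := b2.trans (mul_le_mul_of_nonneg_left c2 (by positivity))
  set P := 𝔉.pull x (S.φ i x) (poly (b i))
  have b6 : ‖σ q - P q‖ ≤ CL * (C₂ * Real.exp w * C) * Real.exp (-μ * t) +
      C₁ * C * ‖S.pU q‖ ^ N := by
    have := norm_sub_le_norm_sub_add_norm_sub (σ q) (tay N (prS S) P q) (P q)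
    rw [norm_sub_rev] at b1
    linarith
  have b7 : |(σ q - P q) (e x q)| ≤ _ := ((σ q - P q).le_opNorm _).trans
    (mul_le_mul b6 (hb x q (hq2 q hq).le) (norm_nonneg _) (by positivity))
  have b8 : |σ q (e x q)| ≤ |(σ q - P q) (e x q)| + |P q (e x q)| := by
    rw [ContinuousLinearMap.sub_apply]
    exact (le_of_eq (by rw [sub_add_cancel])).trans (abs_add_le _ _)
  have p1 : 0 ≤ CL * (C₂ * Real.exp w * C) * Ce * ‖S.pU q‖ ^ N := by positivity
  have p2 : 0 ≤ C₁ * C * Ce * Real.exp (-μ * t) := by positivity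
  have p3 : 0 ≤ C₁ * n * C * ‖S.pU q‖ ^ N := by positivity
  linarith

end Vale.Agent.P207Z.AnnD
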