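import Vale.Agent.P207Z.AnnD.T
import Vale.Agent.P207Z.StayA
import Vale.Agent.P207Z.Bun

/-!
# P207: estimates for equations pulled back along the flow
-/

set_option linter.all false

open Set Filter Topology Metric MeasureTheory Asymptotics
open scoped ContDiff

noncomputable section

namespace Vale.Agent.P207Z.AnnD

open Sys

variable {Γ X B E V : Type} [Group Γ] [Countable Γ] [MetricSpace X] [ProperSpace X]
  [MulAction Γ X] [IsIsometricSMul Γ X] [MeasurableSpace X] [BorelSpace X]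
  [TopologicalSpace B] [CompactSpace B] [T2Space B] [SecondCountableTopology B] [MulAction Γ B]
  [ContinuousConstSMul Γ B] [MeasurableSpace B] [BorelSpace B]
  [NormedAddCommGroup E] [InnerProductSpace ℝ E] [FiniteDimensional ℝ E]
  [NormedAddCommGroup V] [NormedSpace ℝ V] [FiniteDimensional ℝ V]
  {F G W : Type} [NormedAddCommGroup F] [NormedSpace ℝ F] [FiniteDimensional ℝ F]
  [NormedAddCommGroup G] [NormedSpace ℝ G] [FiniteDimensional ℝ G]
  [NormedAddCommGroup W] [NormedSpace ℝ W]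

variable {S : Sys Γ X B E V} (𝔉 : Bun S F)

theorem poly_bd (K J : ℕ) : ∃ C : ℝ, 0 ≤ C ∧ ∀ (a : Jet K V W) (q : V), ‖q‖ ≤ 1 → ∀ l ≤ J,
    ‖iteratedFDeriv ℝ l (poly a) q‖ ≤ C * ‖a‖ := by
  choose c _ hc using fun l => poly_bound (V := V) (W := W) K l
  obtain ⟨n, -, hn⟩ := CalcAux.exists_bd c J 0
  exact ⟨n, Nat.cast_nonneg n, fun a q hq l hl => (hc l a q (mem_closedBall_zero_iff.2 hq)).trans
    (mul_le_mul_of_nonneg_right (hn l hl) (norm_nonneg a))⟩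

theorem isOpen_pre {x y : X} {O : Set V} (hO : IsOpen O) : IsOpen (S.dom x y ∩ S.τ x y ⁻¹' O) :=
  ContinuousOn.isOpen_inter_preimage (jc_τ.smooth (x, y)).continuousOn isOpen_dom hO

theorem pull_smooth {x y : X} {O : Set V} {g : V → F →L[ℝ] G} (hg : ContDiffOn ℝ ∞ g O) :
    ContDiffOn ℝ ∞ (𝔉.pull x y g) (S.dom x y ∩ S.τ x y ⁻¹' O) :=
  (hg.comp ((jc_τ.smooth (x, y)).mono inter_subset_left) fun _ h => h.2).clm_comp
    ((𝔉.jc.smooth (x, y)).mono inter_subset_left)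

theorem pull_poly_smooth {K : ℕ} (x y : X) (a : Jet K V (F →L[ℝ] G)) :
    ContDiffOn ℝ ∞ (𝔉.pull x y (poly a)) (S.dom x y) :=
  (pull_smooth 𝔉 (O := univ) (contDiff_poly a).contDiffOn).mono fun _ h => ⟨h, trivial⟩

theorem pull_bd {a : ℝ} (ha : a < 1) (J : ℕ) : ∃ β C : ℝ, 0 ≤ β ∧ 0 ≤ C ∧
    ∀ x t q, S.Stay a x t q → ∀ (g : V → F →L[ℝ] G) (O : Set V) (M : ℝ), IsOpen O →
      ContDiffOn ℝ ∞ g O → S.τ x (S.φ t x) q ∈ O →
      (∀ l ≤ J, ‖iteratedFDeriv ℝ l g (S.τ x (S.φ t x) q)‖ ≤ M) → ∀ i ≤ J,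
        ‖iteratedFDeriv ℝ i (𝔉.pull x (S.φ t x) g) q‖ ≤ C * M * Real.exp (β * |t|) := by
  obtain ⟨b, hb, h1⟩ := S.stay_τ ha
  obtain ⟨b', hb', h2⟩ := S.stay_A 𝔉 ha
  choose c _ hc using fun k => h1 (k + 1) (Nat.le_add_left 1 k)
  choose c' _ hc' using h2
  obtain ⟨n, -, hn⟩ := CalcAux.exists_bd c J 0
  obtain ⟨n', -, hn'⟩ := CalcAux.exists_bd c' J 0
  refine ⟨b * J + b' * (J + 1), 2 ^ J * (J.factorial * (n + 1) ^ J) * n', by positivity,
    by positivity, fun x t q hq g O M hO hg hm hM i hi => ?_⟩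
  have h0 : 0 ≤ M := (norm_nonneg _).trans (hM 0 (Nat.zero_le _))
  have hd := (hq t right_mem_uIcc).1
  set y := S.φ t x
  have c1 : ContDiffOn ℝ ∞ (S.τ x y) (S.dom x y ∩ S.τ x y ⁻¹' O) :=
    (jc_τ.smooth (x, y)).mono inter_subset_left
  have e1 : 1 ≤ Real.exp (b * |t|) := Real.one_le_exp (by positivity)
  have e2 : (1 : ℝ) ≤ n + 1 := by linarith [Nat.cast_nonneg (α := ℝ) n]
  have h3 := bilin_le (ContinuousLinearMap.compL ℝ F F G) (ContinuousLinearMap.norm_compL_le _ _ _ _)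
    (isOpen_pre hO) (hg.comp c1 fun _ h => h.2) ((𝔉.jc.smooth (x, y)).mono inter_subset_left)
    ⟨hd, hm⟩ (n := i) (C := J.factorial * M * ((n + 1) * Real.exp (b * |t|)) ^ J)
    (D := n' * Real.exp (b' * (J + 1) * |t|)) (fun l hl => ?_) fun l hl => ?_
  · refine h3.trans ?_
    rw [add_mul (b * J), Real.exp_add, mul_pow, ← Real.exp_nat_mul,
      show (J : ℝ) * (b * |t|) = b * J * |t| by ring]
    refine (mul_le_mul_of_nonneg_right (mul_le_mul_of_nonneg_right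
      (pow_le_pow_right₀ one_le_two hi) (by positivity)) (by positivity)).trans (le_of_eq ?_)
    ring
  · refine (StayAux.comp_le (isOpen_pre hO) hO hg c1 (fun _ h => h.2) ⟨hd, hm⟩ l (C := M)
      (D := (n + 1) * Real.exp (b * |t|)) (fun k hk => hM k (by omega)) fun k h1 hk => ?_).trans ?_
    · obtain ⟨k, rfl⟩ : ∃ k', k = k' + 1 := ⟨k - 1, by omega⟩
      refine (hc k x t q hq).trans ?_
      rw [mul_pow, ← Real.exp_nat_mul, show ((k + 1 : ℕ) : ℝ) * (b * |t|) = b * (k + 1 : ℕ) * |t|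
        by ring]
      exact mul_le_mul_of_nonneg_right ((hn k (by omega)).trans ((le_add_of_nonneg_right
        zero_le_one).trans (le_self_pow₀ e2 (by omega)))) (by positivity)
    · exact mul_le_mul (mul_le_mul_of_nonneg_right (by
        exact_mod_cast Nat.factorial_le (hl.trans hi)) h0)
        (pow_le_pow_right₀ (one_le_mul_of_one_le_of_one_le e2 e1) (hl.trans hi)) (by positivity)
        (by positivity)
  · refine (hc' l x t q hq).trans (mul_le_mul (hn' l (hl.trans hi)) (Real.exp_le_exp.2 ?_)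
      (by positivity) (by positivity))
    have : (l : ℝ) ≤ J := by exact_mod_cast hl.trans hi
    gcongr

/-- the defect of one step -/
theorem step_bd (K : ℕ) : ∃ ρ C : ℝ, 0 < ρ ∧ 0 ≤ C ∧ ∀ (y : X) (a a' : Jet K V (F →L[ℝ] G)),
    a = jet K (𝔉.pull y (S.φ 1 y) (poly a')) 0 → ball (0 : V) ρ ⊆ S.dom y (S.φ 1 y) ∧
      ∀ q ∈ ball (0 : V) ρ, ∀ l ≤ K + 1,
        ‖iteratedFDeriv ℝ l (fun z => 𝔉.pull y (S.φ 1 y) (poly a') z - poly a z) q‖
          ≤ C * ‖a'‖ * ‖q‖ ^ (K + 1 - l) := by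
  obtain ⟨b, r, hb, hr, h1⟩ := S.stay_ball (a := 0) (a' := 1 / 2) (by norm_num) (by norm_num)
  obtain ⟨β, C, hβ, hC, h2⟩ := pull_bd 𝔉 (G := G) (a := 1 / 2) (by norm_num) (K + 1)
  obtain ⟨D, hD, h3⟩ := poly_bd (V := V) (W := F →L[ℝ] G) K (K + 1)
  refine ⟨r * Real.exp (-b * |1|), C * D * Real.exp (β * |1|), by positivity, by positivity,
    fun y a a' ha => ?_⟩
  have h4 := fun q hq => (h1 y 1 0 (S.stay_zero le_rfl y 1) q hq).1
  have h5 : ball (0 : V) (r * Real.exp (-b * |1|)) ⊆ S.dom y (S.φ 1 y) := fun q hq =>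
    (h4 q hq 1 right_mem_uIcc).1
  have h6 := (pull_poly_smooth 𝔉 y (S.φ 1 y) a').mono h5
  have h7 : ∀ q ∈ ball (0 : V) (r * Real.exp (-b * |1|)), ∀ l : ℕ,
      ContDiffAt ℝ l (𝔉.pull y (S.φ 1 y) (poly a')) q := fun q hq l =>
    (h6.contDiffAt (isOpen_ball.mem_nhds hq)).of_le (cast_le l)
  have h0 : (0 : V) ∈ ball (0 : V) (r * Real.exp (-b * |1|)) := mem_ball_self (by positivity)
  refine ⟨h5, fun q hq l hl => ?_⟩
  have h8 := deriv_bound_of_jet (k := K) (C := C * D * Real.exp (β * |1|) * ‖a'‖)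
    ((h6.sub (contDiff_poly a).contDiffOn).of_le (cast_le _)) ?_ (fun z hz => ?_) hl hq
  · rwa [sub_zero] at h8
  · rw [jet_sub (h7 0 h0 K) (contDiffAt_poly a K 0), ha, jet_poly_jet (h7 0 h0 K), sub_self]
  · rw [fun_iteratedFDeriv_sub_apply (h7 z hz _) (contDiffAt_poly a _ z),
      iteratedFDeriv_poly_of_lt a (Nat.lt_succ_self K), sub_zero]
    exact (h2 y 1 z (h4 z hz) _ univ _ isOpen_univ (contDiff_poly a').contDiffOn trivial
      (h3 a' _ ((h4 z hz 1 right_mem_uIcc).2.trans (by norm_num))) _ le_rfl).trans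
      (le_of_eq (by ring))

variable (S) in
/-- the projection on the stable axis -/
def prS : V →L[ℝ] V := S.iS ∘L S.pS

theorem norm_prS (q : V) : ‖prS S q‖ ≤ ‖q‖ := (S.norm_iS _).trans_le (S.norm_pS_le q)

theorem prS_le : ‖prS S‖ ≤ 1 :=
  ContinuousLinearMap.opNorm_le_bound _ zero_le_one fun q => by rw [one_mul]; exact norm_prS q

theorem norm_sub_prS (q : V) : ‖q - prS S q‖ = ‖S.pU q‖ := by
  rw [← S.norm_iU, ← sub_eq_iff_eq_add'.2 (S.iS_add q).symm]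
  rfl

variable (S) in
theorem stay_prS : ∃ r C : ℝ, 0 < r ∧ r ≤ 1 / 2 ∧ 0 ≤ C ∧ ∀ x, ∀ t ≥ (0 : ℝ),
    ∀ q ∈ ball (0 : V) r, S.Stay (1 / 4) x t (prS S q) ∧
      ‖S.τ x (S.φ t x) (prS S q)‖ ≤ C * Real.exp (-S.lam * t) * ‖q‖ := by
  obtain ⟨r, C, hr, hC, h⟩ := S.stayS (a := 1 / 4) (by norm_num)
  refine ⟨min r (1 / 2), C, lt_min hr (by norm_num), min_le_right _ _, hC, fun x t ht q hq => ?_⟩
  have h1 := h x t ht (S.pS q) (mem_ball_zero_iff.2 ((S.norm_pS_le q).trans_lt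
    ((mem_ball_zero_iff.1 hq).trans_le (min_le_left _ _))))
  exact ⟨h1.1, h1.2.trans (mul_le_mul_of_nonneg_left (S.norm_pS_le q) (by positivity))⟩

/-- the increments on the stable axis -/
theorem incr_bd (J : ℕ) : ∃ β : ℝ, 0 ≤ β ∧ ∀ K m : ℕ, m + J = K + 1 → ∃ r C : ℝ, 0 < r ∧ 0 ≤ C ∧
    ∀ (x : X) (t : ℝ) (a a' : Jet K V (F →L[ℝ] G)), 0 ≤ t →
      a = jet K (𝔉.pull (S.φ t x) (S.φ (t + 1) x) (poly a')) 0 → ∀ q ∈ ball (0 : V) r, ∀ i ≤ J,
        ‖iteratedFDeriv ℝ i (fun z => 𝔉.pull x (S.φ (t + 1) x) (poly a') z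
          - 𝔉.pull x (S.φ t x) (poly a) z) (prS S q)‖
          ≤ C * ‖a'‖ * ‖q‖ ^ m * Real.exp ((β - S.lam * m) * t) := by
  obtain ⟨β, C, hβ, hC, h1⟩ := pull_bd 𝔉 (G := G) (a := 1 / 4) (by norm_num) J
  obtain ⟨r, D, hr, -, hD, h2⟩ := stay_prS S
  refine ⟨β, hβ, fun K m hm => ?_⟩
  obtain ⟨ρ, C', hρ, hC', h3⟩ := step_bd 𝔉 (G := G) K
  refine ⟨min r (ρ / (D + 1)), C * C' * D ^ m, lt_min hr (by positivity), by positivity,
    fun x t a a' ht ha q hq i hi => ?_⟩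
  have hq1 := ball_subset_ball (min_le_left _ _) hq
  have e0 : S.φ (t + 1) x = S.φ 1 (S.φ t x) := by rw [add_comm, S.φ_add]
  obtain ⟨h4, h5⟩ := h2 x t ht q hq1
  have h6 := ((h2 x (t + 1) (by linarith) q hq1).1 _ right_mem_uIcc).1
  have h7 := h4 _ right_mem_uIcc
  rw [e0] at ha h6 ⊢
  obtain ⟨h8, h9⟩ := h3 _ a a' ha
  set y := S.φ t x
  have e1 : Real.exp (-S.lam * t) ≤ 1 := Real.exp_le_one_iff.2 (by nlinarith [S.lam_pos])
  have hz : S.τ x y (prS S q) ∈ ball (0 : V) ρ := by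
    have a1 : ‖q‖ * (D + 1) < ρ :=
      (lt_div_iff₀ (by positivity)).1 ((mem_ball_zero_iff.1 hq).trans_le (min_le_right _ _))
    have a2 := mul_le_mul_of_nonneg_right (mul_le_of_le_one_right hD e1) (norm_nonneg q)
    rw [mem_ball_zero_iff]
    nlinarith [norm_nonneg q]
  have e : (fun z => 𝔉.pull x (S.φ 1 y) (poly a') z - 𝔉.pull x y (poly a) z) =ᶠ[𝓝 (prS S q)]
      𝔉.pull x y fun z => 𝔉.pull y (S.φ 1 y) (poly a') z - poly a z := by
    filter_upwards [dom_nhds h7.1, dom_nhds h6] with z a1 a2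
    simp only [Bun.pull, ContinuousLinearMap.sub_comp, τ_trans a1 a2, ← 𝔉.coc _ _ _ z a1 a2]
    rfl
  rw [(e.iteratedFDeriv ℝ i).self_of_nhds]
  refine (h1 x t _ h4 _ _ (C' * ‖a'‖ * (D * Real.exp (-S.lam * t) * ‖q‖) ^ m) isOpen_ball
    (((pull_poly_smooth 𝔉 y _ a').mono h8).sub (contDiff_poly a).contDiffOn) hz
    (fun l hl => (h9 _ hz l (by omega)).trans (mul_le_mul_of_nonneg_left
      ((pow_le_pow_of_le_one (norm_nonneg _) (h7.2.trans (by norm_num)) (by omega)).trans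
        (pow_le_pow_left₀ (norm_nonneg _) h5 m)) (by positivity))) i hi).trans (le_of_eq ?_)
  rw [abs_of_nonneg ht, mul_pow, mul_pow, ← Real.exp_nat_mul, sub_mul, sub_eq_add_neg,
    Real.exp_add, show (m : ℝ) * (-S.lam * t) = -(S.lam * m * t) by ring]
  ring

/-- the estimates near the stable axis -/
theorem near_bd {e : X → V → F}
    (he : ∀ x y, ∀ q ∈ S.dom x y, e y (S.τ x y q) = 𝔉.A x y q (e x q)) (N : ℕ) (w : ℝ) :
    ∃ κ r T : ℝ, 0 < κ ∧ 0 < r ∧ ∀ K : ℕ, ∃ C₁ : ℝ, 0 ≤ C₁ ∧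
      ∀ (x : X) (a : Jet K V (F →L[ℝ] ℝ)) (t C n : ℝ), T ≤ t → 0 ≤ t → 0 ≤ n →
        ‖a‖ ≤ C * Real.exp (w * t) →
        (∀ q : V, ‖q‖ ≤ 1 / 2 → |poly a q (e (S.φ t x) q)| ≤ n * ‖a‖ * ‖q‖ ^ (K + 1)) →
        ∀ q ∈ ball (0 : V) r, ‖S.pU q‖ ≤ Real.exp (-κ * t) →
          ‖𝔉.pull x (S.φ t x) (poly a) q - tay N (prS S) (𝔉.pull x (S.φ t x) (poly a)) q‖
            ≤ C₁ * C * ‖S.pU q‖ ^ N ∧
          |𝔉.pull x (S.φ t x) (poly a) q (e x q)|
            ≤ C₁ * n * C * Real.exp ((w - S.lam * (K + 1 : ℕ)) * t) := by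
  obtain ⟨β, C₂, hβ, hC₂, h1⟩ := pull_bd 𝔉 (G := ℝ) (a := 1 / 2) (by norm_num) (N + 1)
  obtain ⟨r, D, hr, hr1, hD, h2⟩ := stay_prS S
  obtain ⟨b, ρ, hb, hρ, h3⟩ := S.stay_ball (a := 1 / 4) (a' := 1 / 2) (by norm_num) (by norm_num)
  have hl := S.lam_pos
  refine ⟨max (b + S.lam) (β + w), r, -Real.log ρ / S.lam + 1, lt_max_of_lt_left (by linarith), hr,
    fun K => ?_⟩
  obtain ⟨D', hD', h4⟩ := poly_bd (V := V) (W := F →L[ℝ] ℝ) K (N + 1)
  refine ⟨C₂ * D' + (D + Real.exp b) ^ (K + 1), by positivity,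
    fun x a t C n hT ht hn ha hA q hq hd => ?_⟩
  have hC : 0 ≤ C := nonneg_of_mul_nonneg_left ((norm_nonneg a).trans ha) (Real.exp_pos _)
  obtain ⟨h5, h6⟩ := h2 x t ht q hq
  have h7 := h3 x t _ h5
  rw [abs_of_nonneg ht] at h7
  have d1 : ‖S.pU q‖ ≤ Real.exp (-S.lam * t) * Real.exp (-b * t) := by
    rw [← Real.exp_add]
    exact hd.trans (Real.exp_le_exp.2 (by nlinarith [le_max_left (b + S.lam) (β + w)]))
  have d2 : Real.exp ((β + w) * t) * ‖S.pU q‖ ≤ 1 := by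
    refine (mul_le_mul_of_nonneg_left hd (by positivity)).trans ?_
    rw [← Real.exp_add]
    exact Real.exp_le_one_iff.2 (by nlinarith [le_max_right (b + S.lam) (β + w)])
  have d3 : ‖q - prS S q‖ < ρ * Real.exp (-b * t) := by
    rw [norm_sub_prS]
    refine d1.trans_lt (mul_lt_mul_of_pos_right ?_ (Real.exp_pos _))
    rw [← Real.lt_log_iff_exp_lt hρ]
    have : -Real.log ρ / S.lam < t := by linarith
    rw [div_lt_iff₀ hl] at this
    linarith
  obtain ⟨h8, h9⟩ := h7 q (mem_ball_iff_norm.2 d3)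
  have h10 := h8 t right_mem_uIcc
  constructor
  · refine (tay_rem (C := C₂ * (D' * (C * Real.exp (w * t))) * Real.exp (β * t))
      ((pull_poly_smooth 𝔉 x _ a).mono fun z hz => ((h7 z hz).1 t right_mem_uIcc).1)
      (fun z hz => ?_) d3).trans ?_
    · have := h1 x t z (h7 z hz).1 _ univ _ isOpen_univ (contDiff_poly a).contDiffOn trivial
        (fun l hl => (h4 a _ (((h7 z hz).1 t right_mem_uIcc).2.trans (by norm_num)) l hl).trans
          (mul_le_mul_of_nonneg_left ha hD')) _ le_rfl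
      rwa [abs_of_nonneg ht] at this
    · rw [norm_sub_prS]
      calc _ = C₂ * D' * C * ‖S.pU q‖ ^ N * (Real.exp ((β + w) * t) * ‖S.pU q‖) := by
            rw [add_mul, Real.exp_add]; ring
        _ ≤ C₂ * D' * C * ‖S.pU q‖ ^ N := mul_le_of_le_one_right (by positivity) d2
        _ ≤ _ := by gcongr; exact le_add_of_nonneg_right (by positivity)
  · have a1 : 𝔉.pull x (S.φ t x) (poly a) q (e x q) = poly a (S.τ x (S.φ t x) q)
        (e (S.φ t x) (S.τ x (S.φ t x) q)) := by rw [he _ _ q h10.1]; rfl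
    have a2 : ‖S.τ x (S.φ t x) q‖ ≤ (D + Real.exp b) * Real.exp (-S.lam * t) := by
      have a3 : Real.exp (b * (t + 1)) * ‖q - prS S q‖ ≤ Real.exp b * Real.exp (-S.lam * t) := by
        rw [norm_sub_prS]
        refine (mul_le_mul_of_nonneg_left d1 (by positivity)).trans (le_of_eq ?_)
        rw [← Real.exp_add, ← Real.exp_add, ← Real.exp_add]
        congr 1
        ring
      have a4 : D * Real.exp (-S.lam * t) * ‖q‖ ≤ D * Real.exp (-S.lam * t) :=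
        mul_le_of_le_one_right (by positivity) (by linarith [mem_ball_zero_iff.1 hq])
      have a5 := norm_le_insert' (S.τ x (S.φ t x) q) (S.τ x (S.φ t x) (prS S q))
      linarith
    rw [a1]
    refine (hA _ h10.2).trans ((mul_le_mul (mul_le_mul_of_nonneg_left ha hn)
      (pow_le_pow_left₀ (norm_nonneg _) a2 _) (by positivity) (by positivity)).trans ?_)
    rw [mul_pow, ← Real.exp_nat_mul, sub_mul, sub_eq_add_neg, Real.exp_add,
      show ((K + 1 : ℕ) : ℝ) * (-S.lam * t) = -(S.lam * (K + 1 : ℕ) * t) by ring]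
    calc _ = (D + Real.exp b) ^ (K + 1) * n * C *
          (Real.exp (w * t) * Real.exp (-(S.lam * (K + 1 : ℕ) * t))) := by ring
      _ ≤ _ := by gcongr; exact le_add_of_nonneg_left (by positivity)

theorem final_le {κ μ B C : ℝ} {N : ℕ} (hκ : 0 < κ) (hμ : κ * N + 1 ≤ μ) (hC : 0 ≤ C) (hB : 0 ≤ B)
    (T : ℝ) : ∃ C' : ℝ, ∀ f d : ℝ, 0 ≤ d → f ≤ B →
      (∀ t ≥ T, d ≤ Real.exp (-κ * t) → f ≤ C * (Real.exp (-μ * t) + d ^ N)) → f ≤ C' * d ^ N := by
  have hN : 0 ≤ κ * N := by positivity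
  refine ⟨2 * C + B * Real.exp (κ * |T|) ^ N, fun f d hd hf h => ?_⟩
  have h0 : 0 ≤ B * Real.exp (κ * |T|) ^ N * d ^ N := by positivity
  have h1 : 0 ≤ C * d ^ N := by positivity
  rcases hd.eq_or_lt with rfl | hd
  · have h2 : Tendsto (fun t : ℝ => C * (Real.exp (-μ * t) + (0 : ℝ) ^ N)) atTop
        (𝓝 (C * (0 + (0 : ℝ) ^ N))) :=
      ((Real.tendsto_exp_atBot.comp (tendsto_id.const_mul_atTop_of_neg
        (by linarith))).add_const _).const_mul C
    have h3 := ge_of_tendsto h2 ((eventually_ge_atTop T).mono fun t ht => h t ht (Real.exp_pos _).le)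
    nlinarith
  rcases le_total d (Real.exp (-κ * |T|)) with h2 | h2
  · have h3 : |T| ≤ -Real.log d / κ := by
      rw [le_div_iff₀ hκ]
      have := (Real.log_le_iff_le_exp hd).2 h2
      linarith
    have h4 : Real.exp (-κ * (-Real.log d / κ)) = d := by
      rw [show -κ * (-Real.log d / κ) = Real.log d by field_simp, Real.exp_log hd]
    have h5 := h _ ((le_abs_self T).trans h3) h4.ge
    have h6 : Real.exp (-μ * (-Real.log d / κ)) ≤ d ^ N := by
      conv_rhs => rw [← h4, ← Real.exp_nat_mul]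
      exact Real.exp_le_exp.2 (by nlinarith [abs_nonneg T])
    nlinarith [mul_le_mul_of_nonneg_left h6 hC]
  · have h3 : 1 ≤ Real.exp (κ * |T|) * d := by
      refine le_trans (le_of_eq ?_) (mul_le_mul_of_nonneg_left h2 (Real.exp_pos _).le)
      rw [← Real.exp_add, neg_mul, add_neg_cancel, Real.exp_zero]
    have h4 := mul_le_mul_of_nonneg_left (one_le_pow₀ h3 (n := N)) hB
    rw [mul_pow] at h4
    nlinarith

end Vale.Agent.P207Z.AnnD
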