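import Vale.Agent.P207Z.JetC
import Vale.Agent.P207Z.An.Lim

/-!
# P207: Taylor polynomials along a subspace, and their limits
-/

set_option linter.all false

open Set Filter Topology Metric Asymptotics
open scoped ContDiff

noncomputable section

namespace Vale.Agent.P207Z.AnnD

variable {V W W' : Type} [NormedAddCommGroup V] [NormedSpace ℝ V] [NormedAddCommGroup W]
  [NormedSpace ℝ W] [NormedAddCommGroup W'] [NormedSpace ℝ W']

theorem cast_le (n : ℕ) : (n : WithTop ℕ∞) ≤ ∞ := by exact_mod_cast le_top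

theorem norm_clm_le (L : W →L[ℝ] W') (hL : ∀ v, ‖L v‖ ≤ ‖v‖) {h : V → W} {z : V}
    (hh : ContDiffAt ℝ ∞ h z) (a : ℕ) :
    ‖iteratedFDeriv ℝ a (L ∘ h) z‖ ≤ ‖iteratedFDeriv ℝ a h z‖ := by
  rw [L.iteratedFDeriv_comp_left hh (cast_le a)]
  exact ContinuousMultilinearMap.opNorm_le_bound (norm_nonneg _) fun m =>
    (hL _).trans (ContinuousMultilinearMap.le_opNorm _ _)

theorem norm_iter_iter (i : ℕ) {h : V → W} {z : V} (hh : ContDiffAt ℝ ∞ h z) : ∀ a : ℕ,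
    ‖iteratedFDeriv ℝ a (iteratedFDeriv ℝ i h) z‖ ≤ ‖iteratedFDeriv ℝ (i + a) h z‖ := by
  induction i with
  | zero =>
    intro a
    rw [iteratedFDeriv_zero_eq_comp, LinearIsometryEquiv.norm_iteratedFDeriv_comp_left, zero_add]
  | succ i ih =>
    intro a
    rw [Nat.add_right_comm, Nat.add_assoc]
    refine le_trans ?_ (ih _)
    obtain ⟨L, hL, e⟩ : ∃ L : (V →L[ℝ] V [×i]→L[ℝ] W) →L[ℝ] V [×(i + 1)]→L[ℝ] W,
        (∀ v, ‖L v‖ ≤ ‖v‖) ∧ iteratedFDeriv ℝ (i + 1) h = L ∘ fderiv ℝ (iteratedFDeriv ℝ i h) :=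
      ⟨(continuousMultilinearCurryLeftEquiv ℝ
        (fun _ : Fin (i + 1) => V) W).symm.toContinuousLinearEquiv.toContinuousLinearMap,
        fun v => ((continuousMultilinearCurryLeftEquiv ℝ
          (fun _ : Fin (i + 1) => V) W).symm.norm_map v).le,
        by rw [iteratedFDeriv_succ_eq_comp_left]; rfl⟩
    have h1 : ContDiffAt ℝ ∞ (iteratedFDeriv ℝ i h) z :=
      hh.iteratedFDeriv_right (m := ∞) (i := i) (by exact_mod_cast le_top)
    have h2 : ContDiffAt ℝ ∞ (fderiv ℝ (iteratedFDeriv ℝ i h)) z :=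
      h1.fderiv_right (m := ∞) (by exact_mod_cast le_top)
    have h3 := norm_clm_le (W := (V →L[ℝ] V [×i]→L[ℝ] W)) (W' := V [×(i + 1)]→L[ℝ] W) L hL h2 a
    rw [← e, norm_iteratedFDeriv_fderiv] at h3
    exact h3

theorem contDiffAt_jet {N : ℕ} {h : V → W} {z : V} (hh : ContDiffAt ℝ ∞ h z) :
    ContDiffAt ℝ ∞ (jet N h) z :=
  contDiffAt_pi.2 fun i => hh.iteratedFDeriv_right (i := i) (by exact_mod_cast le_top)

theorem norm_iter_jet {N a : ℕ} {h : V → W} {z : V} (hh : ContDiffAt ℝ ∞ h z) {M : ℝ}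
    (hM : ∀ i ≤ N + a, ‖iteratedFDeriv ℝ i h z‖ ≤ M) : ‖iteratedFDeriv ℝ a (jet N h) z‖ ≤ M := by
  have h0 : 0 ≤ M := (norm_nonneg _).trans (hM 0 (Nat.zero_le _))
  refine ContinuousMultilinearMap.opNorm_le_bound h0 fun m => ?_
  refine (pi_norm_le_iff_of_nonneg (by positivity)).2 fun i => ?_
  have e := (ContinuousLinearMap.proj (R := ℝ)
    (φ := fun i : Fin (N + 1) => V [×(i : ℕ)]→L[ℝ] W) i).iteratedFDeriv_comp_left
      (contDiffAt_jet (N := N) hh) (cast_le a)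
  have e2 : iteratedFDeriv ℝ a (jet N h) z m i = iteratedFDeriv ℝ a (iteratedFDeriv ℝ i h) z m :=
    (congrArg (fun L => L m) e).symm
  rw [e2]
  refine (ContinuousMultilinearMap.le_opNorm _ _).trans ?_
  exact mul_le_mul_of_nonneg_right ((norm_iter_iter i hh a).trans (hM _ (by omega)))
    (by positivity)

theorem bilin_le (B : W →L[ℝ] W' →L[ℝ] V) (hB : ‖B‖ ≤ 1) {U : Type} [NormedAddCommGroup U]
    [NormedSpace ℝ U] {f : U → W} {g : U → W'} {s : Set U} (hs : IsOpen s)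
    (hf : ContDiffOn ℝ ∞ f s) (hg : ContDiffOn ℝ ∞ g s) {q : U} (hq : q ∈ s) {n : ℕ} {C D : ℝ}
    (hC : ∀ i ≤ n, ‖iteratedFDeriv ℝ i f q‖ ≤ C) (hD : ∀ i ≤ n, ‖iteratedFDeriv ℝ i g q‖ ≤ D) :
    ‖iteratedFDeriv ℝ n (fun y => B (f y) (g y)) q‖ ≤ 2 ^ n * C * D := by
  have h := B.norm_iteratedFDerivWithin_le_of_bilinear_of_le_one hf hg hs.uniqueDiffOn hq
    (cast_le n) hB
  simp only [iteratedFDerivWithin_of_isOpen _ hs hq] at h
  have h0 : 0 ≤ C := (norm_nonneg _).trans (hC 0 (Nat.zero_le _))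
  refine h.trans ((Finset.sum_le_sum fun i hi => mul_le_mul (mul_le_mul_of_nonneg_left
    (hC i (Nat.lt_succ_iff.1 (Finset.mem_range.1 hi))) (Nat.cast_nonneg _))
    (hD _ (Nat.sub_le _ _)) (norm_nonneg _) (by positivity)).trans (le_of_eq ?_))
  rw [← Finset.sum_mul, ← Finset.sum_mul, ← Nat.cast_sum, Nat.sum_range_choose]
  norm_cast

/-- the Taylor polynomial at `π q`, evaluated at `q` -/
def tay (N : ℕ) (π : V →L[ℝ] V) (h : V → W) (q : V) : W := poly (jet N h (π q)) (q - π q)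

variable {N : ℕ} {π : V →L[ℝ] V} {h h' : V → W} {O : Set V} {q : V}

theorem tay_eq (N : ℕ) (π : V →L[ℝ] V) (h : V → W) :
    tay N π h = fun q => polyL N V W (q - π q) (jet N h (π q)) :=
  funext fun q => (polyL_apply _ _).symm

theorem contDiff_polyL' (N : ℕ) (π : V →L[ℝ] V) :
    ContDiff ℝ ∞ fun q => polyL N V W (q - π q) :=
  contDiff_polyL.comp (contDiff_id.sub π.contDiff)

theorem jet_smooth (hO : IsOpen O) (hh : ContDiffOn ℝ ∞ h O) : ContDiffOn ℝ ∞ (jet N h) O :=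
  fun z hz => (contDiffAt_jet (hh.contDiffAt (hO.mem_nhds hz))).contDiffWithinAt

theorem tay_smooth (hO : IsOpen O) (hh : ContDiffOn ℝ ∞ h O) :
    ContDiffOn ℝ ∞ (tay N π h) (π ⁻¹' O) := by
  rw [tay_eq]
  exact (contDiff_polyL' (W := W) N π).contDiffOn.clm_apply
    ((jet_smooth hO hh).comp π.contDiff.contDiffOn fun _ hz => hz)

theorem tay_sub (hh : ContDiffAt ℝ ∞ h (π q)) (hh' : ContDiffAt ℝ ∞ h' (π q)) :
    tay N π (fun z => h z - h' z) q = tay N π h q - tay N π h' q := by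
  simp only [tay_eq]
  rw [jet_sub (hh.of_le (cast_le N)) (hh'.of_le (cast_le N)), map_sub]

theorem tay_congr (e : h =ᶠ[𝓝 (π q)] h') : tay N π h q = tay N π h' q := by
  rw [tay, tay, jet_congr e]

theorem tay_rem {ρ C : ℝ} (hh : ContDiffOn ℝ ∞ h (ball (π q) ρ))
    (hC : ∀ z ∈ ball (π q) ρ, ‖iteratedFDeriv ℝ (N + 1) h z‖ ≤ C) (hq : ‖q - π q‖ < ρ) :
    ‖h q - tay N π h q‖ ≤ C * ‖q - π q‖ ^ (N + 1) :=
  taylor_bound (hh.of_le (cast_le _)) hC (mem_ball_iff_norm.2 hq)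

theorem tay_bound [FiniteDimensional ℝ V] (N j : ℕ) (π : V →L[ℝ] V) (hπ : ‖π‖ ≤ 1) :
    ∃ C : ℝ, 0 ≤ C ∧ ∀ (h : V → W) (O : Set V) (q : V) (M : ℝ), IsOpen O → ContDiffOn ℝ ∞ h O →
      π q ∈ O → ‖q‖ ≤ 1 → (∀ i ≤ N + j, ‖iteratedFDeriv ℝ i h (π q)‖ ≤ M) →
      ∀ i ≤ j, ‖iteratedFDeriv ℝ i (tay N π h) q‖ ≤ C * M := by
  have h1 : ∀ i : ℕ, ∃ C, ∀ q ∈ closedBall (0 : V) 1,
      ‖iteratedFDeriv ℝ i (fun q => polyL N V W (q - π q)) q‖ ≤ C := fun i =>
    (isCompact_closedBall _ _).exists_bound_of_continuousOn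
      ((contDiff_polyL' (W := W) N π).continuous_iteratedFDeriv (cast_le i)).continuousOn
  choose c hc using h1
  obtain ⟨n, -, hn⟩ := CalcAux.exists_bd c j 0
  refine ⟨2 ^ j * n, by positivity, fun h O q M hO hh hq h1 hM i hi => ?_⟩
  have h0 : 0 ≤ M := (norm_nonneg _).trans (hM 0 (Nat.zero_le _))
  have hO' : IsOpen (π ⁻¹' O) := hO.preimage π.continuous
  have h2 := norm_iteratedFDerivWithin_clm_apply (s := π ⁻¹' O)
    (contDiff_polyL' (W := W) N π).contDiffOn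
    ((jet_smooth (N := N) hO hh).comp π.contDiff.contDiffOn fun _ hz => hz) hO'.uniqueDiffOn hq
    (cast_le i)
  simp only [iteratedFDerivWithin_of_isOpen _ hO' hq] at h2
  have h3 : ∀ a ≤ j, ‖iteratedFDeriv ℝ a (jet N h ∘ π) q‖ ≤ M := fun a ha => by
    rw [← iteratedFDerivWithin_of_isOpen _ hO' hq, π.iteratedFDerivWithin_comp_right
      (jet_smooth (N := N) hO hh) hO.uniqueDiffOn hO'.uniqueDiffOn hq (cast_le a),
      iteratedFDerivWithin_of_isOpen _ hO hq]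
    refine (ContinuousMultilinearMap.norm_compContinuousLinearMap_le _ _).trans ?_
    refine (mul_le_of_le_one_right (norm_nonneg _)
      (Finset.prod_le_one (fun _ _ => norm_nonneg _) fun _ _ => hπ)).trans ?_
    exact norm_iter_jet (hh.contDiffAt (hO.mem_nhds hq)) fun l hl => hM l (by omega)
  rw [tay_eq]
  refine h2.trans ((Finset.sum_le_sum fun a ha => mul_le_mul (mul_le_mul_of_nonneg_left
    ((hc a q (mem_closedBall_zero_iff.2 h1)).trans
      (hn a (by have := Finset.mem_range.1 ha; omega))) (Nat.cast_nonneg _))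
    (h3 _ (by omega)) (norm_nonneg _) (by positivity)).trans ?_)
  rw [← Finset.sum_mul, ← Finset.sum_mul, ← Nat.cast_sum, Nat.sum_range_choose]
  push_cast
  gcongr
  norm_num

theorem exp_tail {μ : ℝ} (hμ : 1 ≤ μ) (M : ℝ) (hM : 0 ≤ M) (n : ℕ) :
    ∑' m : ℕ, M * Real.exp (-μ * (n + m : ℕ)) ≤ 2 * (M * Real.exp (-μ * n)) := by
  have h1 : Real.exp (-μ) ≤ 1 / 2 := by
    rw [Real.exp_neg, one_div]
    exact inv_anti₀ two_pos (by linarith [Real.add_one_le_exp μ])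
  have h2 : ∀ m : ℕ, M * Real.exp (-μ * (n + m : ℕ)) =
      M * Real.exp (-μ * n) * Real.exp (-μ) ^ m := fun m => by
    rw [← Real.exp_nat_mul, mul_assoc, ← Real.exp_add]
    congr 2
    push_cast
    ring
  simp only [h2]
  rw [tsum_mul_left, tsum_geometric_of_lt_one (Real.exp_pos _).le (by linarith), mul_comm]
  refine mul_le_mul_of_nonneg_right ?_ (by positivity)
  rw [inv_le_comm₀ (by linarith) two_pos]
  linarith

theorem exp_summable {μ : ℝ} (hμ : 1 ≤ μ) (M : ℝ) :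
    Summable fun m : ℕ => M * Real.exp (-μ * m) := by
  have h2 : ∀ m : ℕ, Real.exp (-μ * m) = Real.exp (-μ) ^ m := fun m => by
    rw [← Real.exp_nat_mul, mul_comm]
  simp only [h2]
  exact (summable_geometric_of_lt_one (Real.exp_pos _).le
    (Real.exp_lt_one_iff.2 (by linarith))).mul_left _

theorem tail_le {u : ℕ → W} {v : W} {μ M : ℝ} (hμ : 1 ≤ μ) (hM : 0 ≤ M)
    (h : ∀ n : ℕ, ‖u (n + 1) - u n‖ ≤ M * Real.exp (-μ * n)) (hl : Tendsto u atTop (𝓝 v)) (n : ℕ) :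
    ‖v - u n‖ ≤ 2 * (M * Real.exp (-μ * n)) := by
  have h1 := dist_le_tsum_of_dist_le_of_tendsto (fun m : ℕ => M * Real.exp (-μ * m))
    (fun n => by rw [dist_comm, dist_eq_norm]; exact h n) (exp_summable hμ M) hl n
  rw [dist_comm, dist_eq_norm] at h1
  exact h1.trans (exp_tail hμ M hM n)

/-- the limit of the Taylor polynomials -/
theorem tay_lim [FiniteDimensional ℝ V] [CompleteSpace W] (N j : ℕ) (π : V →L[ℝ] V)
    (hπ : ‖π‖ ≤ 1) : ∃ C : ℝ, 0 ≤ C ∧ ∀ (s : ℕ → V → W) (O : ℕ → Set V) (r μ M : ℝ) (m : ℕ),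
      r ≤ 1 → 1 ≤ μ → 0 ≤ M → (∀ n, IsOpen (O n)) → (∀ n, ContDiffOn ℝ ∞ (s n) (O n)) →
      (∀ n, ∀ q ∈ ball (0 : V) r, π q ∈ O n) →
      (∀ n : ℕ, ∀ q ∈ ball (0 : V) r, ∀ i ≤ N + j,
        ‖iteratedFDeriv ℝ i (fun z => s (n + 1) z - s n z) (π q)‖
          ≤ M * ‖q‖ ^ m * Real.exp (-μ * n)) →
      ∃ σ : V → W, ContDiffOn ℝ j σ (ball 0 r) ∧
        (∀ i ≤ j, ∀ q ∈ ball (0 : V) r,
          ‖iteratedFDeriv ℝ i σ q - iteratedFDeriv ℝ i (tay N π (s 0)) q‖ ≤ C * M) ∧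
        ∀ n : ℕ, ∀ q ∈ ball (0 : V) r,
          ‖σ q - tay N π (s n) q‖ ≤ C * M * ‖q‖ ^ m * Real.exp (-μ * n) := by
  obtain ⟨C, hC, hb⟩ := tay_bound (W := W) N j π hπ
  refine ⟨2 * C, by positivity, fun s O r μ M m hr hμ hM hO hs hq hd => ?_⟩
  have hsm : ∀ n, ContDiffOn ℝ ∞ (tay N π (s n)) (ball 0 r) := fun n =>
    (tay_smooth (hO n) (hs n)).mono (hq n)
  have h1 : ∀ q ∈ ball (0 : V) r, ‖q‖ ≤ 1 := fun q hq => (mem_ball_zero_iff.1 hq).le.trans hr
  have key : ∀ i ≤ j, ∀ n : ℕ, ∀ q ∈ ball (0 : V) r,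
      ‖iteratedFDeriv ℝ i (tay N π (s (n + 1))) q - iteratedFDeriv ℝ i (tay N π (s n)) q‖
        ≤ C * M * ‖q‖ ^ m * Real.exp (-μ * n) := by
    intro i hi n q hq'
    have e : (fun z => tay N π (s (n + 1)) z - tay N π (s n) z) =ᶠ[𝓝 q]
        tay N π fun z => s (n + 1) z - s n z :=
      mem_of_superset (isOpen_ball.mem_nhds hq') fun z hz =>
        (tay_sub ((hs _).contDiffAt ((hO _).mem_nhds (hq _ z hz)))
          ((hs _).contDiffAt ((hO _).mem_nhds (hq _ z hz)))).symm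
    rw [← fun_iteratedFDeriv_sub_apply
      (((hsm _).contDiffAt (isOpen_ball.mem_nhds hq')).of_le (cast_le i))
      (((hsm _).contDiffAt (isOpen_ball.mem_nhds hq')).of_le (cast_le i)),
      (e.iteratedFDeriv ℝ i).self_of_nhds]
    refine (hb _ (O (n + 1) ∩ O n) q _ ((hO _).inter (hO _))
      (((hs _).mono inter_subset_left).sub ((hs _).mono inter_subset_right))
      ⟨hq _ q hq', hq _ q hq'⟩ (h1 q hq') (hd n q hq') i hi).trans (le_of_eq (by ring))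
  have key0 : ∀ n : ℕ, ∀ q ∈ ball (0 : V) r, ‖tay N π (s (n + 1)) q - tay N π (s n) q‖
      ≤ C * M * ‖q‖ ^ m * Real.exp (-μ * n) := fun n q hq' => by
    have := key 0 (Nat.zero_le _) n q hq'
    rwa [iteratedFDeriv_zero_eq_comp, iteratedFDeriv_zero_eq_comp, Function.comp, Function.comp,
      ← map_sub, LinearIsometryEquiv.norm_map] at this
  have key1 : ∀ i ≤ j, ∀ n : ℕ, ∀ q ∈ ball (0 : V) r,
      ‖iteratedFDeriv ℝ i (tay N π (s (n + 1))) q - iteratedFDeriv ℝ i (tay N π (s n)) q‖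
        ≤ C * M * Real.exp (-μ * n) := fun i hi n q hq' =>
    (key i hi n q hq').trans (mul_le_mul_of_nonneg_right (mul_le_of_le_one_right (by positivity)
      (pow_le_one₀ (norm_nonneg _) (h1 q hq'))) (by positivity))
  have hc : ∀ q ∈ ball (0 : V) r, ∃ v, Tendsto (fun n => tay N π (s n) q) atTop (𝓝 v) :=
    fun q hq' => cauchySeq_tendsto_of_complete (cauchySeq_of_dist_le_of_summable _
      (fun n => by rw [dist_comm, dist_eq_norm]; exact key0 n q hq') (exp_summable hμ _))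
  choose! σ hσ using hc
  obtain ⟨h2, h3⟩ := An.contDiffOn_of_summable j isOpen_ball
    (fun n => (hsm n).of_le (cast_le j)) (exp_summable hμ (C * M)) key1 hσ
  refine ⟨σ, h2, fun i hi q hq' => ?_, fun n q hq' => ?_⟩
  · have := tail_le hμ (by positivity) (fun n => key1 i hi n q hq') (h3 i hi q hq') 0
    simpa [mul_assoc] using this
  · exact (tail_le hμ (by positivity) (fun n => key0 n q hq') (hσ q hq') n).trans
      (le_of_eq (by ring))

end Vale.Agent.P207Z.AnnD
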